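import Crest.Agent.X212.Trs39.Site
import Crest.Agent.X212.Sf30.P2Pk

/-!
# X212 / Trs39 (helper39): P2-TRANS
-/

set_option autoImplicit false
set_option linter.unusedSectionVars false

open Finset Classical

noncomputable section

namespace Crest.Agent.X212.Trs39

open Crest.Agent.X212.Hp13 Alg36 Cut21 Ind26 Pt30
open Sf30 hiding Inn
open Sup43 (Inn inn_up inn_sub nice_inn dp_up)
open Kh11 (WS sctr_min sctr_max clo_cmp)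

section gen

variable {P Q : Type} [PartialOrder P] [Fintype P] [PartialOrder Q] [Fintype Q]

/-- all components have Euler characteristic one -/
def One (E : Set P) : Prop := ∀ C, IsCmp E C → eu C = 1

theorem one_iff {A : Set P} {B : Set Q} {f : P → Q} (h : WS A B f) : One A ↔ One B :=
  ⟨fun k C hC => (h.restr (clo_cmp hC)).eu_eq ▸ k _ (h.isCmp_pre hC), fun k C hC => by
    obtain ⟨D, hD, rfl⟩ := h.isCmp_ex hC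
    rw [(h.restr (clo_cmp hD)).eu_eq, k D hD]⟩

theorem cmp_same {E C D : Set P} (hC : IsCmp E C) (hD : IsCmp E D) {x : P} (h1 : x ∈ C)
    (h2 : x ∈ D) : C = D := (hC.eq h1).trans (hD.eq h2).symm

/-- a connected part of a disc is a disc if all the other regions reach the rim -/
theorem reg_one {M : Set P} {e : P → P → ℤ} (h : Z1 M e) (hM : Mf 3 M) {Δ X : Set (Ch P)}
    (hS : Δ ⊆ Mx M e) (hc : Conn Δ) (he : eu Δ = 1) {c q : Ch P} (h1 : c ∈ Δ) (h2 : q ∈ Qe M e)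
    (h3 : q ∉ Δ) (k : Cm c q) (hX : X ⊆ Δ) (hn : X.Nonempty) (hx : Conn X)
    (hz : ∀ Z, IsCmp (Δ \ X) Z → ∀ a ∈ Z, ∀ a' ∈ X, Cm a a' →
      ¬ ∀ a ∈ Z, ∀ x ∈ Qe M e, Cm a x → x ∈ Δ) : eu X = 1 := by
  have : IsCoc M e := ⟨h.coc⟩
  have Q := hS.trans (mx_qe subset_rfl)
  have QX := hX.trans Q
  have QD : Δ \ X ⊆ Qe M e := fun _ a => Q a.1
  by_cases hH : (Δ \ X).Nonempty
  swap
  · rwa [show X = Δ from hX.antisymm fun a ha => by_contra fun j => hH ⟨a, ha, j⟩]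
  have col : Col (ch ⁻¹' Δ : Set (Lv M e)) (ch ⁻¹' X) (ch ⁻¹' (Δ \ X)) := col_diff fun _ a => hX a
  have cn := (h.conn_pre Q).2 hc
  have nG := (h.ws QX).ne_iff.2 hn
  have cG : IsCmp (ch ⁻¹' X : Set (Lv M e)) (ch ⁻¹' X) :=
    isCmp_of subset_rfl nG ((h.conn_pre QX).2 hx) fun _ _ _ a _ => a
  have e1 : 1 ≤ eu (ch ⁻¹' Δ : Set (Lv M e)) := by rw [h.eu_pre Q, he]
  rw [← h.eu_pre QX]
  by_cases nc : NoC (ch ⁻¹' Δ : Set (Lv M e)) (ch ⁻¹' X) (ch ⁻¹' (Δ \ X))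
  · exact (tree (h.mf hM hS) col cn nG ((h.ws QD).ne_iff.2 hH) e1 nc).1 _ (Or.inl cG)
  obtain ⟨c₀, h0⟩ := not_forall.1 nc
  obtain ⟨Y, r, e2, i⟩ := inn_disc (h.mf hM hS) col cn e1
    (Or.inl ⟨_, pr_mix (a := cel (Q h1)) (x := cel h2) h1 h3 (h.ch_cm.1 k)⟩) (not_not.1 h0)
  rcases r with r | r
  · obtain ⟨y, hy⟩ := r.ne
    rwa [cmp_same cG r (r.sub hy) hy]
  obtain ⟨t, ⟨-, a', t1, t2⟩, a, t3, t4⟩ := cmp_if col.symm cn nG r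
  obtain ⟨Z, hZ, rfl⟩ := h.cmp_ex QD r
  exact absurd (fun b hb x hx j => i (cel (QD (hZ.sub hb))) hb (cel hx) (h.ch_cm.1 j))
    (hz Z hZ _ t4 _ t2 (h.ch_cm.2 (t.cm t3 t1)))

end gen

variable {s s' : St} {z : s.P → s.P → ℤ} {π : s'.P → s.P} {e : s.P → s.P → ℤ} {E' : Set s'.P}

namespace Hy

variable (H : Hy s s' z π e E')
include H

theorem one_G : One (Sr (Inn s'.A) {x | x ∈ E' ∧ π x ∈ Inn s.A}) := fun X hX => by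
  have h := H.pk
  have nB : ∀ {x}, x ∈ E' → x ∉ Inn s'.A := fun k => (H.si.sub k).1
  have qe : ∀ {t b : s'.P} (l : t ≤ b), t ∉ Inn s'.A → b ∈ Inn s'.A →
      Ch.pr t b l ∈ Qe (Inn s'.A) (cb (ind (Inn s'.A))) := fun l a1 a2 =>
    mx_qe subset_rfl (mem_mx_ind.2 ⟨by simpa using a2, by simpa using a1⟩)
  have pe : ∀ {t b : s'.P} (l : t ≤ b), b ∈ Inn s'.A → Ch.pr t b l ∈ Sr (Inn s'.A) E' → t ∈ E' :=
    fun l a2 ⟨_, x, a3, a4⟩ => (Cut21.mem_pr.1 a3).elim (fun k => k ▸ a4)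
      fun k => absurd (k ▸ a2) (nB a4)
  obtain ⟨w, hw, y, ly, hy⟩ := H.si.ne
  obtain ⟨u, hu, lu⟩ := H.exb hw
  have t := H.tri_nx hw hy ly hu lu
  refine reg_one (z1_ind inn_up) (mfB h) (sr_sub inn_up H.si.sub) H.si.conn H.si.eu ⟨t.1, t.2.1⟩
    (qe (ly.trans lu) (fun k => nB hw (inn_up ly k)) hu) (fun k => hy (pe _ hu k))
    (Or.inr (Cut21.pr_le (by simp) (by simp)))
    (fun c k => ⟨(hX.sub k).1, mt_sub (hX.sub k).2 fun _ j => j.1⟩) hX.ne hX.conn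
    fun Z hZ a ha a' ha' j i => ?_
  have cell : ∀ {c : Ch s'.P} {t}, c.top ∈ Inn s'.A → t ∈ c.1 → t ∈ E' →
      (∀ x ∈ c.1, x ∈ Inn s'.A ∨ π x ∉ Inn s.A) → c ∈ Sr (Inn s'.A) E' \ X := fun a1 a2 a3 a4 =>
    ⟨⟨a1, _, a2, a3⟩, fun k => let ⟨x, a5, a6⟩ := (hX.sub k).2
      (a4 x a5).elim (nB a6.1) fun n => n a6.2⟩
  obtain ⟨⟨a1, q, a2, a3⟩, a4⟩ := hZ.sub ha
  have a5 : π q ∉ Inn s.A := fun k => a4 (hX.clopen ha' ⟨a1, q, a2, a3, k⟩ j.symm)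
  obtain ⟨r, R, y, n, b, fb, l, k⟩ := h.walk (H.si.sub a3) a5
  suffices hr : r ∈ E' by
    rcases H.si.side with sd | sd <;> rcases k with rfl | rfl
    exacts [n (sd _ hr _ le_rfl), n (sd _ hr _ l), sd _ hr _ le_rfl b fb l, sd _ hr _ l _ fb l]
  refine (Ind26.rch_ind R (p := fun t => t ∈ E' ∧ ∃ a ∈ Z, t ∈ a.1) ⟨a3, a, ha, a2⟩ ?_).1
  rintro t ht t' ht' c ⟨b1, a, b2, b3⟩
  have c1 : ∀ {b} (l : t ≤ b), b ∈ Inn s'.A → Ch.pr t b l ∈ Sr (Inn s'.A) E' \ X := fun l k =>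
    cell (by simpa using k) (by simp) b1 fun x j =>
      (Cut21.mem_pr.1 j).elim (fun j => Or.inr (j ▸ ht.2)) fun j => Or.inl (j ▸ k)
  have top := (hZ.sub b2).1.1
  have c2 : ∀ b ∈ Inn s'.A, ∀ l : t ≤ b, Ch.pr t b l ∈ Z := fun b k l =>
    (conn_ge inn_up.ordConnected (niceB h) t _ ⟨top, Ch.le_top b3⟩ b ⟨k, l⟩).ind
      (p := fun b => ∀ l : t ≤ b, Ch.pr t b l ∈ Z)
      (fun l => hZ.clopen b2 (c1 l top) (Or.inr (Cut21.pr_le b3 a.top_mem)))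
      (fun v hv v' hv' m => by
        have d : tp (Ch.pr t v hv.2) v' (by simpa using m) ∈ Sr (Inn s'.A) E' \ X :=
          cell (by simpa using hv'.1) (by simp) b1 fun x j => by
            rcases mem_tp.1 j with j | j
            · exact Or.inl (j ▸ hv'.1)
            · exact (Cut21.mem_pr.1 j).elim (fun j => Or.inr (j ▸ ht.2)) fun j => Or.inl (j ▸ hv.1)
        have d1 : Ch.pr t v hv.2 ≤ tp (Ch.pr t v hv.2) v' (by simpa using m) := le_tp _ _ _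
        have d2 : Ch.pr t v' hv'.2 ≤ tp (Ch.pr t v hv.2) v' (by simpa using m) :=
          Cut21.pr_le (by simp) (by simp)
        exact ⟨fun i l => hZ.clopen (hZ.clopen (i hv.2) d (Or.inl d1)) (c1 l hv'.1) (Or.inr d2),
          fun i l => hZ.clopen (hZ.clopen (i hv'.2) d (Or.inl d2)) (c1 l hv.1) (Or.inr d1)⟩) l
  obtain ⟨b, k, l, l'⟩ : ∃ b ∈ Inn s'.A, t ≤ b ∧ t' ≤ b := c.elim
    (fun m => let ⟨b, k, l⟩ := ht'.1.2; ⟨b, k, m.trans l, l⟩)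
    fun m => let ⟨b, k, l⟩ := ht.1.2; ⟨b, k, l, m.trans l⟩
  have cm : ∀ x ∈ (Ch.pr t b l).1, Cm t' x := fun x j =>
    (Cut21.mem_pr.1 j).elim (fun j => j ▸ c.symm) fun j => j ▸ Or.inl l'
  have d : (Ch.pr t b l).ins t' cm ∈ Z := hZ.clopen (c2 b k l)
    (cell (inn_up (Ch.le_top (by simp)) k) (t := t) (by simp) b1 fun x j => by
      rcases mem_insert.1 j with j | j
      · exact Or.inr (j ▸ ht'.2)
      · exact (Cut21.mem_pr.1 j).elim (fun j => Or.inr (j ▸ ht.2)) fun j => Or.inl (j ▸ k))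
    (Or.inl (Ch.le_ins _ _ _))
  exact ⟨pe l' k (i _ d _ (qe l' ht'.1.1 k) (Or.inr (Cut21.pr_le (by simp) (by simp)))), _, d,
    by simp⟩

theorem one_EM : One {n | n ∈ π '' E' ∧ n ∈ Inn s.A} :=
  (one_iff (WS.of_iso (A := {x | x ∈ E' ∧ π x ∈ Inn s.A}) (f := π)
    (B := {n | n ∈ π '' E' ∧ n ∈ Inn s.A})
    (fun x k => ⟨⟨x, k.1, rfl⟩, k.2⟩) (fun _ ⟨⟨x, a, b⟩, k⟩ => ⟨x, ⟨a, b ▸ k⟩, b⟩)
    fun _ a _ b => H.le_iff a.1 b.1)).1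
    ((one_iff (ws_sr inn_up (niceB H.pk) fun _ k => H.si.sub k.1)).1 H.one_G)

/-- the double points -/
theorem one_Y :
    One {n | n ∈ π '' E' ∧ (Lz s.A z n 0).Nonempty ∧ (Lz s.A z n 1).Nonempty} := fun C hC => by
  have h := H.pk
  have nU : ∀ {n}, n ∈ π '' E' → n ∉ Uz s.A z := fun ⟨_, a, b⟩ => b ▸ H.notU a
  have cl : ∀ a ∈ C, ∀ b ∈ π '' E', b ∈ Inn s.A → Cm a b → b ∈ C := fun a ha b hb m j =>
    hC.clopen ha ⟨hb, lz0 h m.1, lz1 h ⟨m, nU hb⟩⟩ j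
  have k : ∀ y ∈ C, y ∉ {n | n ∈ C ∧ n ∈ Inn s.A} →
      {v | v ∈ {n | n ∈ C ∧ n ∈ Inn s.A} ∧ y ≤ v}.Nonempty ∧
      Conn {v | v ∈ {n | n ∈ C ∧ n ∈ Inn s.A} ∧ y ≤ v} ∧
      eu {v | v ∈ {n | n ∈ C ∧ n ∈ Inn s.A} ∧ y ≤ v} = 1 := fun y hy n => by
    obtain ⟨⟨x, hx, rfl⟩, a1, a2⟩ := hC.sub hy
    rw [show {v | v ∈ {n | n ∈ C ∧ n ∈ Inn s.A} ∧ π x ≤ v} =
      {k | k ∈ Inn s.A \ Uz s.A z ∧ π x ≤ k} from Set.ext fun v =>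
        ⟨fun j => ⟨⟨j.1.2, nU (hC.sub j.1.1).1⟩, j.2⟩,
        fun j => ⟨⟨cl _ hy v (H.upK hx j.1 j.2) j.1.1 (Or.inl j.2), j.1.1⟩, j.2⟩⟩]
    exact h.kc (fun j => n ⟨hy, j⟩) a1 a2
  obtain ⟨e1, e2⟩ := weak_incl (fun _ j => j.1) k
  rw [← e1]
  refine H.one_EM _ (isCmp_of (fun _ j => ⟨(hC.sub j.1).1, j.2⟩) ?_ (e2 hC.conn)
    fun a ha b hb j => ⟨cl a ha.1 b hb.1 hb.2 j, hb.2⟩)
  obtain ⟨y, hy⟩ := hC.ne
  by_cases n : y ∈ {n | n ∈ C ∧ n ∈ Inn s.A}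
  · exact ⟨y, n⟩
  · exact let ⟨v, hv⟩ := (k y hy n).1; ⟨v, hv.1⟩

/-- the other lifts of the double points -/
theorem one_Y' : One {q | (q ∈ Om (Inn s'.A) ∧ π q ∈ π '' E') ∧ q ∉ E'} := by
  have h := H.pk
  have ne : ∀ {q x b c : s'.P}, q ∉ E' → x ∈ E' → π x = π q → b ∈ Inn s'.A → c ∈ Inn s'.A →
      q ≤ b → x ≤ c → z (π q) (π b) + z (π q) (π c) = 1 := fun {q x b c} a1 a2 a3 a4 a5 a6 a7 => by
    have := z01 h (mapB h a4).1.1 (mon h a6)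
    have := z01 h (mapB h a5).1.1 (a3 ▸ mon h a7)
    have : z (π q) (π b) ≠ z (π q) (π c) := fun k =>
      a1 (h.inj b a4.1 c a5.1 q x a6 a7 a3.symm (by rw [a3, k]) ▸ a2)
    omega
  refine (one_iff (WS.of_iso (f := π) ?_ ?_ ?_)).2 H.one_Y
  · rintro q ⟨⟨⟨-, b, hb, l⟩, x, hx, k⟩, n⟩
    obtain ⟨c, hc, l'⟩ := H.exb hx
    have := ne n hx k hb hc l l'
    have m : π q ≤ π c := k ▸ mon h l'
    rcases z01 h (mapB h hb).1.1 (mon h l) with j | j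
    · exact ⟨⟨x, hx, k⟩, ⟨_, mapB h hb, mon h l, j⟩, _, mapB h hc, m, by omega⟩
    · exact ⟨⟨x, hx, k⟩, ⟨_, mapB h hc, m, by omega⟩, _, mapB h hb, mon h l, j⟩
  · rintro _ ⟨⟨x, hx, rfl⟩, a0, a1⟩
    obtain ⟨c, hc, l'⟩ := H.exb hx
    obtain ⟨u, h1, h2, h3⟩ : ∃ u ∈ Uz s.A z, π x ≤ u ∧ z (π x) u ≠ z (π x) (π c) := by
      obtain ⟨u, h1, h2, h3⟩ := a0
      obtain ⟨v, h4, h5, h6⟩ := a1
      by_cases j : z (π x) (π c) = 0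
      exacts [⟨v, h4, h5, by omega⟩, ⟨u, h1, h2, by omega⟩]
    obtain ⟨b, hb, rfl⟩ := exB h h1
    obtain ⟨q, l, k⟩ := exdn h hb.1 h2
    refine ⟨q, ⟨⟨om_of h hb l (k ▸ H.notU hx), x, hx, k.symm⟩, fun j => h3 ?_⟩, k⟩
    obtain rfl := H.inj j hx k
    exact lev_eq h hb.1 hc.1 l l'
  · rintro q ⟨⟨⟨-, b, hb, l⟩, x, hx, k⟩, n⟩ q' ⟨⟨⟨n1, b', hb', l'⟩, a⟩, n'⟩
    refine ⟨fun m => ?_, fun m => mon h m⟩
    obtain ⟨r, h1, h2⟩ := exdn h hb'.1 (m.trans (mon h l'))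
    have h3 : r ≤ q' := le_dn h hb'.1 h1 l' (h2 ▸ m)
    have h4 : r ∉ E' := fun j => n' (H.si.up r j q' ⟨n1, b', hb', l'⟩ h3)
    obtain ⟨c, hc, lc⟩ := H.exb hx
    have e1 := ne n hx k hb hc l lc
    have e2 := ne h4 hx (k.trans h2.symm) hb' hc h1 lc
    rwa [h.inj b hb.1 b' hb'.1 q r l h1 h2.symm (by rw [h2] at e2 ⊢; omega)]

theorem one_W : One {q | q ∈ Om (Inn s'.A) ∧ π q ∈ π '' E'} := fun C hC => by
  have w := ws_sr inn_up (niceB H.pk) H.si.sub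
  have cE : IsCmp {q | q ∈ Om (Inn s'.A) ∧ π q ∈ π '' E'} E' :=
    isCmp_of (fun x k => ⟨H.si.sub k, x, k, rfl⟩) (let ⟨x, k, _⟩ := H.si.ne; ⟨x, k⟩)
      (w.conn_iff.1 H.si.conn) fun _ a _ b j => H.mem_cm a b.1 j b.2
  by_cases k : ∃ x ∈ C, x ∈ E'
  · obtain ⟨x, h1, h2⟩ := k
    rw [cmp_same hC cE h1 h2, ← w.eu_eq, H.si.eu]
  · exact H.one_Y' C (isCmp_of (fun x j => ⟨hC.sub j, fun i => k ⟨x, j, i⟩⟩) hC.ne hC.conn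
      fun _ a _ b j => hC.clopen a b.1 j)

theorem one_ny : One (NYs (Inn s.A) (π '' E')) := by
  have h := H.pk
  have tU : ∀ c ∈ NYs (Inn s.A) (π '' E'), c.top ∈ Uz s.A z :=
    fun c ⟨a, ⟨_, b, x, hx, k⟩, n⟩ => by_contra fun j => n (H.upK hx ⟨a, j⟩ (k ▸ Ch.le_top b))
  refine (one_iff (h.ws_im tU)).1 ?_
  convert (one_iff (ws_sr inn_up (niceB h) fun _ k => k.1)).2 H.one_W using 1
  refine Set.ext fun d => ⟨fun ⟨a, _, ⟨_, b, k⟩, _⟩ => ?_, fun ⟨a, q, b, k⟩ => ⟨a, ?_,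
    ⟨π q, h.mem_im.2 ⟨q, b, rfl⟩, k.2⟩, ?_⟩⟩
  · obtain ⟨q, h1, rfl⟩ := h.mem_im.1 b
    exact ⟨a, q, h1, om_of h a (Ch.le_top h1) (let ⟨_, a, b⟩ := k; b ▸ H.notU a), k⟩
  · rw [h.top_im]; exact (mapB h a).1
  · rw [h.top_im]; exact fun ⟨_, i, j⟩ => H.notU i (j ▸ mapB h a)

end Hy

/-- P2-TRANS -/
theorem transStmt : TransStmt := fun s s' z π e E' h1 h2 h3 h4 =>
  have H : Hy s s' z π e E' := ⟨h1, h2, h3, h4⟩
  ⟨H.mvs, H.conn_nx, H.ne_nx, H.one_ny, fun _ ⟨_, a, b⟩ n _ k => b ▸ H.off a (b ▸ n) k,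
    fun _ ⟨_, a, b⟩ => b ▸ H.notU a, fun _ ⟨_, a, b⟩ _ k l => H.upK a k (b ▸ l),
    (Classical.em _).imp id fun n _ hD => H.last (fun c a b => n ⟨c, a, b⟩) hD⟩

end Crest.Agent.X212.Trs39
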