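import Crest.Agent.X212.Sf30.P2Bas

/-!
# X212 / Trs39 (helper39): the points of the cut manifold and their levels
-/

set_option autoImplicit false
set_option linter.unusedSectionVars false

open Finset Classical

noncomputable section

namespace Crest.Agent.X212.Trs39

open Crest.Agent.X212.Hp13 Alg36 Cut21 Ind26 Pt30
open Sf30 hiding Inn
open Sup43 (Inn inn_up inn_sub nice_inn)
open Kh11 (WS sctr_min sctr_max)

section gen

variable {P : Type} [PartialOrder P] [Fintype P] {A : Set P}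

theorem conn_ge (hA : A.OrdConnected) (hN : Nice A) (n : P) : Conn {a | a ∈ A ∧ n ≤ a} := by
  by_cases k : n ∈ A
  · exact conn_cone (m := n) ⟨k, le_rfl⟩ fun _ l => Or.inr l.2
  by_cases l : ∃ u ∈ A, n ≤ u
  · exact (Nice.ctr_ge hA hN ⟨k, l⟩).conn
  · exact fun a m => absurd ⟨a, m.1, m.2⟩ l

/-- a connected set that meets two colours has a two coloured edge -/
theorem exists_edge {E : Set P} (hc : Conn E) {p : P → Prop} {x y : P} (hx : x ∈ E) (hy : y ∈ E)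
    (h1 : p x) (h2 : ¬ p y) : ∃ a ∈ E, ∃ b ∈ E, a ≤ b ∧ ¬ (p a ↔ p b) := by
  by_contra k
  push Not at k
  exact h2 ((hc x hx y hy).ind h1 k)

theorem fr_of {a : P} (ha : a ∈ A) (h : a ∉ Inn A) : a ∈ Fr A := by_contra fun k => h ⟨ha, k⟩

end gen

variable {s s' : St} {z : s.P → s.P → ℤ} {π : s'.P → s.P}

section pk

variable (h : Pk s s' z π)
include h

theorem L : Lift s s' π := h.cov.toLift
theorem mon : Monotone π := (L h).mon

theorem zadd {x y w : s.P} (hw : w ∈ s.A) (h1 : x ≤ y) (h2 : y ≤ w) : z x w = z x y + z y w :=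
  (tri3 hw h1 h2).add h.adm.sf.coc

theorem znn {x y w : s.P} (hw : w ∈ s.A) (h1 : x ≤ y) (h2 : y ≤ w) : 0 ≤ z x y :=
  h.adm.sf.mono _ _ (dp_hi hw h1 h2)

theorem z01 {x y : s.P} (hy : y ∈ s.A) (l : x ≤ y) : z x y = 0 ∨ z x y = 1 := by
  have := znn h hy l le_rfl
  have := h.jk x y (Or.inl hy) l
  omega

/-- the level of a point of `K` is zero -/
theorem zK {x k : s.P} (hk : k ∈ Kz s.A z) (l : x ≤ k) : z x k = 0 := by
  obtain ⟨h1, u, h2, h3, h4⟩ := hk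
  have := zadd h h2 l h3
  have := znn h h1 l le_rfl
  have := h.jk x u (Or.inl h2) (l.trans h3)
  omega

theorem zU {u v : s.P} (hu : u ∈ Uz s.A z) (l : u ≤ v) : z u v = 0 := by
  have hv := (inn_up l hu.1).1
  have := znn h hv l le_rfl
  by_contra k
  exact hu.2 ⟨hu.1.1, v, hv, l, by omega⟩

theorem upU : IsUpperSet (Uz s.A z) := fun u v l hu =>
  ⟨inn_up l hu.1, fun ⟨_, w, h2, h3, h4⟩ => by
    have := zadd h h2 l h3
    have := zU h hu l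
    have := zU h hu (l.trans h3)
    omega⟩

theorem niceM : Nice (Inn s.A) := nice_inn h.st.conv h.st.nice h.st.thick
theorem niceB : Nice (Inn s'.A) := nice_inn h.st'.conv h.st'.nice h.st'.thick
theorem mfM : Mf 3 (Inn s.A) := h.st.mf.mono inn_sub
theorem mfB : Mf 3 (Inn s'.A) := h.st'.mf.mono inn_sub

/-- lift under a cell -/
theorem exdn {b : s'.P} (hb : b ∈ s'.A) {x : s.P} (l : x ≤ π b) : ∃ q, q ≤ b ∧ π q = x :=
  let ⟨q, c, e⟩ := (L h).ex hb (Or.inr l)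
  ⟨q, (L h).refl b hb q b c Cm.rfl (e ▸ l), e⟩

theorem exup {b : s'.P} (hb : b ∈ s'.A) {x : s.P} (l : π b ≤ x) : ∃ q, b ≤ q ∧ π q = x :=
  let ⟨q, c, e⟩ := (L h).ex hb (Or.inl l)
  ⟨q, (L h).refl b hb b q Cm.rfl c (e ▸ l), e⟩

theorem le_dn {b q q' : s'.P} (hb : b ∈ s'.A) (h1 : q ≤ b) (h2 : q' ≤ b) (l : π q ≤ π q') :
    q ≤ q' := (L h).refl b hb q q' (Or.inr h1) (Or.inr h2) l

/-- F1 -/
theorem memB {b : s'.P} (hb : b ∈ s'.A) : b ∈ Inn s'.A ↔ π b ∈ Uz s.A z := by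
  have a := (L h).mem hb
  refine ⟨fun k => ?_, fun k => ⟨hb, fun ⟨_, o, o1, o2⟩ => o1 ((h.cov.up b hb o o2).2
    ⟨(inn_up (mon h o2) k.1).1, zU h k (mon h o2)⟩)⟩⟩
  have t : ∀ o, π b ≤ o → o ∈ s.A ∧ z (π b) o = 0 := fun o l => by
    obtain ⟨q, h1, rfl⟩ := exup h hb l
    exact (h.cov.up b hb q h1).1 (inn_up h1 k).1
  exact ⟨⟨a, fun ⟨_, o, o1, o2⟩ => o1 (t o o2).1⟩, fun ⟨_, u, _, h3, h4⟩ => by
    rw [(t u h3).2] at h4; exact lt_irrefl _ h4⟩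

theorem mapB {b : s'.P} (hb : b ∈ Inn s'.A) : π b ∈ Uz s.A z := (memB h hb.1).1 hb

theorem exB {u : s.P} (hu : u ∈ Uz s.A z) : ∃ b ∈ Inn s'.A, π b = u :=
  let ⟨b, hb, e⟩ := (L h).exA hu.1.1
  ⟨b, (memB h hb).2 (e ▸ hu), e⟩

theorem omU {q : s'.P} (hq : q ∈ Om (Inn s'.A)) : π q ∉ Uz s.A z := fun k =>
  let ⟨h1, b, hb, l⟩ := hq
  h1 ((memB h ((h.cov.dn b hb.1 q l).2 ⟨k.1.1, zU h k (mon h l)⟩)).2 k)

theorem om_of {q b : s'.P} (hb : b ∈ Inn s'.A) (l : q ≤ b) (k : π q ∉ Uz s.A z) :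
    q ∈ Om (Inn s'.A) := ⟨fun j => k (mapB h j), b, hb, l⟩

theorem frB {b : s'.P} (hb : b ∈ s'.A) (k : π b ∉ Uz s.A z) : b ∈ Fr s'.A :=
  fr_of hb fun j => k (mapB h j)

theorem exInn {a : s'.P} (ha : a ∈ s'.A) : ∃ b ∈ Inn s'.A, a ≤ b := by
  by_cases k : a ∈ Inn s'.A
  · exact ⟨a, k, le_rfl⟩
  · obtain ⟨b, h1, h2, h3⟩ := (h.st'.thick.inn a (fr_of ha k)).ne
    exact ⟨b, ⟨h1, h3⟩, h2⟩

/-- the level of a point does not depend on the cell -/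
theorem lev_eq {q b b' : s'.P} (hb : b ∈ s'.A) (hb' : b' ∈ s'.A) (l : q ≤ b) (l' : q ≤ b') :
    z (π q) (π b) = z (π q) (π b') :=
  (conn_ge h.st'.conv h.st'.nice q b ⟨hb, l⟩ b' ⟨hb', l'⟩).eq (g := fun b => z (π q) (π b))
    fun a ha c hc k => by
      rw [zadd h ((L h).mem hc.1) (mon h ha.2) (mon h k), h.cov.zero ha.1 hc.1 k, add_zero]

/-- a point is under every cell of its level -/
theorem under {q b a : s'.P} (hb : b ∈ s'.A) (ha : a ∈ s'.A) (l : q ≤ b) (k : π q ≤ π a)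
    (e : z (π q) (π a) = z (π q) (π b)) : q ≤ a := by
  obtain ⟨r, h1, h2⟩ := exdn h ha k
  rwa [← h.inj a ha b hb r q h1 l h2 (by rw [h2, e])]

/-- F4: the low side -/
theorem lz0 {a : s.P} (ha : a ∈ s.A) : (Lz s.A z a 0).Nonempty := by
  obtain ⟨a', h1, rfl⟩ := (L h).exA ha
  obtain ⟨b, h2, h3⟩ := exInn h h1
  exact ⟨π b, mapB h h2, mon h h3, h.cov.zero h1 h2.1 h3⟩

omit h in
theorem kz_of {k : s.P} (hk : k ∈ Inn s.A \ Uz s.A z) : k ∈ Kz s.A z :=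
  by_contra fun j => hk.2 ⟨hk.1, j⟩

/-- F4: the high side -/
theorem lz1 {k : s.P} (hk : k ∈ Inn s.A \ Uz s.A z) : (Lz s.A z k 1).Nonempty := by
  obtain ⟨-, u, h2, h3, h4⟩ := kz_of hk
  have := z01 h h2 h3
  refine ⟨u, by_contra fun j => ?_, h3, by omega⟩
  have := zK h (kz_of ⟨inn_up h3 hk.1, j⟩) h3
  omega

theorem lzj {k : s.P} (hk : k ∈ Inn s.A \ Uz s.A z) {j : ℤ} (hj : j = 0 ∨ j = 1) :
    (Lz s.A z k j).Nonempty := by
  rcases hj with rfl | rfl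
  exacts [lz0 h hk.1.1, lz1 h hk]

theorem exU {m : s.P} (hm : m ∈ s.A) : ∃ u ∈ Uz s.A z, m ≤ u :=
  let ⟨u, h1, h2, _⟩ := lz0 h hm; ⟨u, h1, h2⟩

/-- two levels over a point: there is a point of `K` over it -/
theorem exK {V : Set s.P} (hV : V ⊆ s.A) (hc : V.OrdConnected) (hN : Nice V) {n u v : s.P}
    (hu : u ∈ V) (hv : v ∈ V) (l : n ≤ u) (l' : n ≤ v) (e : z n u ≠ z n v) :
    ∃ k ∈ V, k ∈ Kz s.A z ∧ n ≤ k := by
  obtain ⟨a, ha, b, hb, k, j⟩ := exists_edge (conn_ge hc hN n) (p := fun t => z n u = z n t)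
    ⟨hu, l⟩ ⟨hv, l'⟩ rfl e
  refine ⟨a, ha.1, ⟨hV ha.1, b, hV hb.1, k, ?_⟩, ha.2⟩
  have := zadd h (hV hb.1) ha.2 k
  have := znn h (hV hb.1) k le_rfl
  by_contra i
  exact j (by rw [show z n b = z n a by omega])

theorem exKM {n u v : s.P} (hu : u ∈ Inn s.A) (hv : v ∈ Inn s.A) (l : n ≤ u) (l' : n ≤ v)
    (e : z n u ≠ z n v) : ∃ k ∈ Inn s.A \ Uz s.A z, n ≤ k :=
  let ⟨k, h1, h2, h3⟩ := exK h inn_sub inn_up.ordConnected (niceM h) hu hv l l' e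
  ⟨k, ⟨h1, fun j => j.2 h2⟩, h3⟩

/-- a point of level zero under a point of `K` is under the frontier -/
theorem frK {q b : s'.P} (hb : b ∈ s'.A) (l : q ≤ b) (e : z (π q) (π b) = 0) {k : s.P}
    (hk : k ∈ Kz s.A z) (l' : π q ≤ k) : ∃ a ∈ Fr s'.A, q ≤ a := by
  obtain ⟨a, h1, rfl⟩ := (L h).exA hk.1
  exact ⟨a, frB h h1 fun j => j.2 hk, under h hb h1 l l' (by rw [e, zK h hk l'])⟩

/-- F2 -/
theorem ex_im {c : Ch s.P} (hc : c.top ∈ Uz s.A z) : ∃ d : Ch s'.P, d.top ∈ Inn s'.A ∧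
    (L h).im d = c := by
  obtain ⟨b, hb, e⟩ := exB h hc
  obtain ⟨d, rfl, hd⟩ := (L h).ex_thr hb.1 (e ▸ c.top_mem)
  exact ⟨d, inn_up (Ch.le_top hd) hb, rfl⟩

theorem im_le {d d' : Ch s'.P} (hd : d.top ∈ Inn s'.A) (hd' : d'.top ∈ Inn s'.A) :
    (L h).im d ≤ (L h).im d' ↔ d ≤ d' := by
  refine ⟨fun k => ?_, fun k => (L h).im_mono k⟩
  have t := Ch.top_mono k
  rw [(L h).top_im, (L h).top_im] at t
  have t' : d.top ≤ d'.top := (h.cov.le_iff hd.1 hd'.1).2 ⟨t, zU h (mapB h hd) t⟩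
  exact (L h).le_of_im hd'.1 (fun _ j => Or.inr ((Ch.le_top j).trans t'))
    (fun _ j => Or.inr (Ch.le_top j)) k

end pk

end Crest.Agent.X212.Trs39
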