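import Crest.Agent.X212.Trs39.Bas

/-!
# X212 / Trs39 (helper39): the image of a site
-/

set_option autoImplicit false
set_option linter.unusedSectionVars false

open Finset Classical

noncomputable section

namespace Crest.Agent.X212.Trs39

open Crest.Agent.X212.Hp13 Alg36 Cut21 Ind26 Pt30
open Sf30 hiding Inn
open Sup43 (Inn inn_up inn_sub nice_inn dp_up)
open Kh11 (WS sctr_min sctr_max)

variable {s s' : St} {z : s.P → s.P → ℤ} {π : s'.P → s.P} {e : s.P → s.P → ℤ} {E' : Set s'.P}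

/-- the hypotheses of TRANS -/
structure Hy (s s' : St) (z : s.P → s.P → ℤ) (π : s'.P → s.P) (e : s.P → s.P → ℤ)
    (E' : Set s'.P) : Prop where
  pk : Pk s s' z π
  z1 : Z1 (Inn s.A) e
  si : Site s'.A (pb π e) E'
  fl : ∀ x ∈ E', ∀ v, Dp (Inn s.A) (π x) v → e (π x) v = 0

namespace Hy

variable (H : Hy s s' z π e E')
include H

theorem exb {x : s'.P} (hx : x ∈ E') : ∃ b ∈ Inn s'.A, x ≤ b := (H.si.sub hx).2

theorem notU {x : s'.P} (hx : x ∈ E') : π x ∉ Uz s.A z := omU H.pk (H.si.sub hx)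

theorem flat {x : s'.P} (hx : x ∈ E') {v m : s.P} (hm : m ∈ Inn s.A) (h1 : π x ≤ v) (h2 : v ≤ m) :
    e (π x) v = 0 := H.fl x hx v (dp_hi hm h1 h2)

theorem lo {x y : s'.P} (hx : x ∈ E') (l : y ≤ x) (hy : y ∉ E') : e (π y) (π x) = 1 :=
  H.si.lo x hx y l hy

theorem lo_not {x y : s'.P} (hx : x ∈ E') (l : y ≤ x) (hy : y ∉ E') : π y ∉ π '' E' := by
  rintro ⟨w, hw, k⟩
  obtain ⟨b, hb, l'⟩ := H.exb hx
  have := H.flat hw (mapB H.pk hb).1 (k ▸ mon H.pk l) (mon H.pk l')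
  rw [k, H.lo hx l hy] at this
  exact one_ne_zero this

/-- a point comparable with `E'` over the image of `E'` is in `E'` -/
theorem mem_cm {x q : s'.P} (hx : x ∈ E') (hq : q ∈ Om (Inn s'.A)) (c : Cm x q)
    (k : π q ∈ π '' E') : q ∈ E' :=
  c.elim (H.si.up x hx q hq) fun l => by_contra fun j => H.lo_not hx l j k

theorem mvs : Mvs (Inn s.A) (π '' E') e := by
  refine ⟨fun _ ⟨x, hx, k⟩ v hp => k ▸ H.fl x hx v (k ▸ hp), ?_⟩
  rintro _ ⟨x, hx, rfl⟩ y hp hy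
  obtain ⟨b, hb, l⟩ := H.exb hx
  obtain ⟨q, h1, rfl⟩ := exdn H.pk hb.1 (hp.1.trans (mon H.pk l))
  exact H.lo hx (le_dn H.pk hb.1 h1 l hp.1) fun j => hy ⟨q, j, rfl⟩

theorem upK {x : s'.P} (hx : x ∈ E') {k : s.P} (hk : k ∈ Inn s.A \ Uz s.A z) (l : π x ≤ k) :
    k ∈ π '' E' := by
  have h := H.pk
  obtain ⟨b, hb, l'⟩ := H.exb hx
  obtain ⟨u, h1, h2, h3⟩ := lzj h hk (z01 h (mapB h hb).1.1 (mon h l'))
  obtain ⟨c, hc, rfl⟩ := exB h h1
  obtain ⟨q, h4, rfl⟩ := exdn h hc.1 h2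
  have : x ≤ c := under h hb.1 hc.1 l' (l.trans h2) (by
    rw [zadd h h1.1.1 l h2, zK h (kz_of hk) l, h3, zero_add])
  exact ⟨q, H.si.up x hx q (om_of h hc h4 hk.2) (le_dn h hc.1 this h4 l), rfl⟩

theorem off {x : s'.P} (hx : x ∈ E') (hA : π x ∉ s.A) {b : s.P} (hb : b ∈ Fr s.A) :
    ¬ π x ≤ b := fun l => by
  have h := H.pk
  have sd := H.si.side.resolve_left fun k => hA ((L h).mem (k x hx x le_rfl))
  obtain ⟨c, hc, l'⟩ := H.exb hx
  have c1 := (mapB h hc).1.1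
  have key : ∀ b ∈ Fr s.A, π x ≤ b → z (π x) b ≠ z (π x) (π c) := fun b hb l k => by
    obtain ⟨a, h1, rfl⟩ := (L h).exA hb.1
    exact sd x hx x le_rfl a (frB h h1 fun j => j.1.2 hb) (under h hc.1 h1 l' l k)
  rcases z01 h c1 (mon h l') with k | k
  · obtain ⟨a, -, h2, h3⟩ := exK h subset_rfl h.st.conv h.st.nice hb.1 c1 l (mon h l') (key b hb l)
    obtain ⟨a', h4, h5⟩ := frK h hc.1 l' k h2 h3
    exact sd x hx x le_rfl a' h4 h5
  · obtain ⟨b', h1, h2, h3⟩ := h.nt _ hA b hb l _ c1 (mon h l') (by omega)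
    have := z01 h h1.1 h2
    exact key b' h1 h2 (by omega)

/-- `π` is injective on a site -/
theorem inj {x y : s'.P} (hx : x ∈ E') (hy : y ∈ E') (k : π x = π y) : x = y := by
  have h := H.pk
  obtain ⟨b, hb, l⟩ := H.exb hx
  obtain ⟨c, hc, l'⟩ := H.exb hy
  refine h.inj b hb.1 c hc.1 x y l l' k (by_contra fun j => ?_)
  rcases H.si.side with sd | sd
  · exact j (by rw [h.cov.zero (sd x hx x le_rfl) hb.1 l, h.cov.zero (sd y hy y le_rfl) hc.1 l'])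
  have b1 := mapB h hb
  have c1 := mapB h hc
  obtain ⟨a, h1, h2⟩ := exKM h b1.1 c1.1 (mon h l) (k ▸ mon h l') (by rwa [← k] at j)
  have := z01 h b1.1.1 (mon h l)
  have := z01 h c1.1.1 (mon h l')
  by_cases i : z (π x) (π b) = 0
  · obtain ⟨a', h4, h5⟩ := frK h hb.1 l i (kz_of h1) h2
    exact sd x hx x le_rfl a' h4 h5
  · obtain ⟨a', h4, h5⟩ := frK h hc.1 l' (by omega) (kz_of h1) (k ▸ h2)
    exact sd y hy y le_rfl a' h4 h5

theorem le_iff {x y : s'.P} (hx : x ∈ E') (hy : y ∈ E') : π x ≤ π y ↔ x ≤ y := by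
  refine ⟨fun k => ?_, fun k => mon H.pk k⟩
  obtain ⟨b, hb, l⟩ := H.exb hy
  obtain ⟨q, h1, h2⟩ := exdn H.pk hb.1 (k.trans (mon H.pk l))
  have h3 := le_dn H.pk hb.1 h1 l (h2 ▸ k)
  rwa [H.inj hx (by_contra fun j => H.lo_not hy h3 j ⟨x, hx, h2.symm⟩) h2.symm]

theorem im_nx {d : Ch s'.P} (hd : d ∈ NXs (Inn s'.A) E') :
    (L H.pk).im d ∈ NXs (Inn s.A) (π '' E') := by
  obtain ⟨h1, ⟨x, h2, h3⟩, h4⟩ := hd
  refine ⟨?_, ⟨π x, (L H.pk).mem_im.2 ⟨x, h2, rfl⟩, x, h3, rfl⟩, ?_⟩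
  · rw [(L H.pk).top_im]; exact (mapB H.pk h1).1
  · rw [(L H.pk).bot_im]; exact H.lo_not h3 (Ch.bot_le h2) h4

theorem tri_nx {x y b : s'.P} (hx : x ∈ E') (hy : y ∉ E') (l : y ≤ x) (hb : b ∈ Inn s'.A)
    (l' : x ≤ b) : tp (Ch.pr y x l) b (by simpa using l') ∈ NXs (Inn s'.A) E' :=
  ⟨by simpa using hb, ⟨x, by simp, hx⟩, by simpa using hy⟩

theorem ne_nx : (NXs (Inn s.A) (π '' E')).Nonempty :=
  let ⟨_, hx, _, l, hy⟩ := H.si.ne
  let ⟨_, hb, l'⟩ := H.exb hx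
  ⟨_, H.im_nx (H.tri_nx hx hy l hb l')⟩

theorem conn_nx : Conn (NXs (Inn s.A) (π '' E')) := by
  have h := H.pk
  have key : ∀ c ∈ NXs (Inn s.A) (π '' E'), ∃ d ∈ NXs (Inn s'.A) E',
      Rch (NXs (Inn s.A) (π '' E')) c ((L h).im d) := by
    rintro c ⟨h1, ⟨_, h2, x, hx, rfl⟩, h3⟩
    obtain ⟨b, hb, l⟩ := H.exb hx
    obtain ⟨y, h4, h5⟩ := exdn h hb.1 ((Ch.bot_le h2).trans (mon h l))
    have l' : y ≤ x := le_dn h hb.1 h4 l (h5 ▸ Ch.bot_le h2)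
    have hy : y ∉ E' := fun j => h3 ⟨y, j, h5⟩
    refine ⟨_, H.tri_nx hx hy l' hb l, Rch.mono (fun t ht => ?_)
      (conn_over inn_up (niceM h) (Ch.pr _ _ (mon h l')) c
        ⟨Cut21.pr_le (h5 ▸ c.bot_mem) h2, h1⟩ _ ⟨Cut21.pr_le ?_ ?_, (H.im_nx (H.tri_nx hx hy l' hb l)).1⟩)⟩
    · have m1 : π x ∈ t.1 := ht.1 (by simp)
      have m2 : π y ∈ t.1 := ht.1 (by simp)
      refine ⟨ht.2, ⟨_, m1, x, hx, rfl⟩, fun ⟨w, hw, k⟩ => ?_⟩
      have a1 := H.flat hw ht.2 (k ▸ Ch.bot_le m1) (Ch.le_top m1)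
      have a2 := H.z1.add ht.2 (Ch.bot_le m2) (mon h l') (Ch.le_top m1)
      have a3 := H.z1.nn ht.2 (Ch.bot_le m2) (Ch.le_top m2)
      rw [k] at a1
      rw [H.lo hx l' hy] at a2
      omega
    · exact (L h).mem_im.2 ⟨y, by simp, rfl⟩
    · exact (L h).mem_im.2 ⟨x, by simp, rfl⟩
  intro c hc c' hc'
  obtain ⟨d, hd, r⟩ := key c hc
  obtain ⟨d', hd', r'⟩ := key c' hc'
  exact (r.trans ((H.si.curve d hd d' hd').map fun a ha b hb l =>
    Rch.of_cm (H.im_nx ha) (H.im_nx hb) (Or.inl ((L h).im_mono l)))).trans r'.symm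

/-- off the cutting surface the boundary curve of the site is a whole boundary curve -/
theorem last (hn : ∀ c ∈ Mx (Inn s.A \ Uz s.A z) e, c.top ∉ π '' E') {D : Set (Ch s.P)}
    (hD : IsCmp (Mx (Inn s.A) e) D) (he : eu D = 1) (hs : NXs (Inn s.A) (π '' E') ⊆ D) :
    ep s.A e D = 0 := by
  have h := H.pk
  rw [ep, card_eq_zero, filter_eq_empty_iff]
  rintro c - ⟨hc, x, hx, x', hx', b, hb, l, n, fb, p⟩
  have ct := (hD.sub hc).1
  obtain ⟨w, hw, y, ly, hy⟩ := H.si.ne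
  obtain ⟨u, hu, lu⟩ := H.exb hw
  have t := H.im_nx (H.tri_nx hw hy ly hu lu)
  have nK : ∀ {k y : s.P}, k ∈ Inn s.A \ Uz s.A z → k ∈ π '' E' → y ≤ k → e y k ≤ 0 :=
    fun {k y} a1 a2 a3 => not_lt.1 fun a4 =>
      hn (Ch.pr y k a3) ⟨by simpa using a1, by simpa using a4⟩ (by simpa using a2)
  have r := H.z1.rim (mfM h) hD.sub (cmp_upper (mx_upper H.z1 inn_up subset_rfl) hD) hD.conn he.ge
    (fun q _ => Mt (π '' E') q) (fun _ _ _ _ _ _ _ _ => rfl)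
    (fun q q1 q2 c c1 q' q3 q4 q5 => propext ⟨?_, fun k => k.mono q4⟩)
    (q := Ch.pr _ _ (mon h ly)) (q' := Ch.pr x x' l)
    ⟨dom_pr _ |>.2 (dp_hi (mapB h hu).1 (mon h ly) (mon h lu)), by simp [H.lo hw ly hy]⟩
    (fun k => ?_) (hs t) (Cut21.pr_le ((L h).mem_im.2 ⟨y, by simp, rfl⟩)
      ((L h).mem_im.2 ⟨w, by simp, rfl⟩))
    ⟨dom_pr _ |>.2 (dp_hi ct l (Ch.le_top hx')), by simpa using p⟩
    (fun k => n (by simpa using (hD.sub k).1.1)) hc (Cut21.pr_le hx hx')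
  · obtain ⟨v, hv, v', h1, rfl⟩ : Mt (π '' E') (Ch.pr x x' l) := r ▸ ⟨π w, by simp, w, hw, rfl⟩
    rcases Cut21.mem_pr.1 hv with rfl | rfl
    · rw [H.flat h1 ct l (Ch.le_top hx')] at p
      exact lt_irrefl _ p
    · exact H.off h1 n fb ((c.cm hx' hb).resolve_right fun k =>
        n (h.st.conv.out fb.1 ct.1 ⟨k, Ch.le_top hx'⟩))
  · rintro ⟨_, a1, v, hv, rfl⟩
    have ct := (hD.sub c1).1
    have qt : q.top ∉ Inn s.A := fun k => q2 (hD.clopen c1 ⟨k, q1.2⟩ (Or.inr q5))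
    have le : ∀ {t}, t ∈ q.1 → t ≤ c.top := fun k => Ch.le_top (q5 k)
    have mt := q4 q'.top_mem
    have mb := q4 q'.bot_mem
    have p := q3.2
    refine ⟨q'.top, q'.top_mem, by_contra fun k => ?_⟩
    rcases q.cm mt a1 with j | j
    · have a2 := H.mvs.lo _ ⟨v, hv, rfl⟩ _ (dp_hi ct j (le a1)) k
      have a3 := H.z1.add ct q'.bot_le_top j (le a1)
      have a4 := H.z1.le1 ct (q'.bot_le_top.trans j) (le a1)
      omega
    have a2 := H.flat hv ct j (le mt)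
    have j' : q'.bot ≤ π v := (q.cm mb a1).resolve_right fun i => by
      have a3 := H.z1.add ct i q'.bot_le_top (le mt)
      have a4 := H.z1.nn ct i (le mb)
      omega
    have a3 := H.z1.add ct j' j (le mt)
    obtain ⟨b, hb, lb⟩ := H.exb hv
    obtain ⟨u, hu, lu⟩ := exU h ct.1
    by_cases i : z (π v) u = z (π v) (π b)
    · obtain ⟨u', h1, rfl⟩ := exB h hu
      obtain ⟨t, h2, h3⟩ := exdn h h1.1 ((le mt).trans lu)
      have h4 := under h hb.1 h1.1 lb ((le a1).trans lu) i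
      exact k ⟨t, H.si.up v hv t (om_of h h1 h2 fun i => qt (inn_up (Ch.le_top mt) (h3 ▸ i.1)))
        (le_dn h h1.1 h4 h2 (h3 ▸ j)), h3⟩
    · obtain ⟨k', h1, h2⟩ := exKM h hu.1 (mapB h hb).1 ((le a1).trans lu) (mon h lb) i
      have a4 := nK h1 (H.upK hv h1 h2) (j'.trans h2)
      have a5 := H.z1.add h1.1 j' h2 le_rfl
      have a6 := H.z1.nn h1.1 h2 le_rfl
      omega
  · have := nK ⟨by simpa using (hD.sub k).1, H.notU hw⟩ ⟨w, hw, rfl⟩ (mon h ly)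
    rw [H.lo hw ly hy] at this
    omega

end Hy

end Crest.Agent.X212.Trs39
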